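import Mathlib

/-!
# P123, step (5): the curve `ζ + γ conj ζ` lies in the closure of the numerical range

`V` an isometry, `W` its adjoint, `e` a unit vector killed by `W`.  With
`y n = ∑_{k ≤ n} ζ^k V^k e` one has `⟪y, V y⟫ = n conj ζ`, `⟪y, y⟫ = n + 1`, hence
`⟪x, (W + γ V) x⟫ = (n/(n+1)) (ζ + γ conj ζ)` for the unit vector `x = y / sqrt (n+1)`.
Consequently every polynomial bounded by `M` on the numerical range is bounded by `M`
on the curve.  (Mathlib's `inner x (A x)` is the problem file's `<Ax, x>`.)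
-/

namespace Vale.Agent.Lib.P123.H73

open Complex Polynomial Filter Topology
open scoped ComplexConjugate InnerProductSpace

variable {H : Type*} [NormedAddCommGroup H] [InnerProductSpace ℂ H]

/-- the vectors `y n = e + ζ V (y (n-1))`, i.e. `∑_{k ≤ n} ζ^k V^k e`. -/
noncomputable def yvec (V : H →L[ℂ] H) (e : H) (ζ : ℂ) : ℕ → H
  | 0 => e
  | n + 1 => e + ζ • V (yvec V e ζ n)

section
variable (V W : H →L[ℂ] H)
  (hV : ∀ x y : H, ⟪V x, V y⟫_ℂ = ⟪x, y⟫_ℂ)
  (hW : ∀ x y : H, ⟪W x, y⟫_ℂ = ⟪x, V y⟫_ℂ)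
  (e : H) (he : W e = 0) (hen : ‖e‖ = 1) (ζ : ℂ) (hζ : ‖ζ‖ = 1)

include hW he in
theorem inner_e_V (x : H) : ⟪e, V x⟫_ℂ = 0 := by
  rw [← hW, he, inner_zero_left]

include hW he in
theorem inner_V_e (x : H) : ⟪V x, e⟫_ℂ = 0 := by
  rw [← inner_conj_symm, inner_e_V V W hW e he x, map_zero]

include hen in
theorem inner_e_e : ⟪e, e⟫_ℂ = 1 := by
  rw [inner_self_eq_norm_sq_to_K, hen]; simp

include hζ in
theorem conj_mul_self_zeta : conj ζ * ζ = 1 := by
  rw [mul_comm, Complex.mul_conj, Complex.normSq_eq_norm_sq, hζ]; simp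

include hW he hen in
theorem inner_y_e (n : ℕ) : ⟪yvec V e ζ n, e⟫_ℂ = 1 := by
  cases n with
  | zero => simpa [yvec] using inner_e_e e hen
  | succ n =>
    simp only [yvec, inner_add_left, inner_smul_left]
    rw [inner_V_e V W hW e he, inner_e_e e hen]; simp

include hV hW he hen hζ in
theorem inner_y_y (n : ℕ) : ⟪yvec V e ζ n, yvec V e ζ n⟫_ℂ = (n : ℂ) + 1 := by
  induction n with
  | zero => simpa [yvec] using inner_e_e e hen
  | succ n ih =>
    simp only [yvec, inner_add_left, inner_add_right, inner_smul_left, inner_smul_right]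
    rw [inner_V_e V W hW e he, inner_e_V V W hW e he, inner_e_e e hen, hV, ih]
    have h := conj_mul_self_zeta ζ hζ
    push_cast
    linear_combination ((n : ℂ) + 1) * h

include hV hW he hen hζ in
theorem inner_y_Vy (n : ℕ) : ⟪yvec V e ζ n, V (yvec V e ζ n)⟫_ℂ = (n : ℂ) * conj ζ := by
  induction n with
  | zero => simpa [yvec] using inner_e_V V W hW e he e
  | succ n ih =>
    have h := conj_mul_self_zeta ζ hζ
    have h1 : ⟪yvec V e ζ (n + 1), V (yvec V e ζ (n + 1))⟫_ℂ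
        = conj ζ * ⟪yvec V e ζ n, yvec V e ζ (n + 1)⟫_ℂ := by
      conv_lhs => rw [show yvec V e ζ (n + 1) = e + ζ • V (yvec V e ζ n) from rfl]
      rw [inner_add_left, inner_smul_left]
      rw [show e + ζ • V (yvec V e ζ n) = yvec V e ζ (n + 1) from rfl]
      rw [inner_e_V V W hW e he, hV, zero_add]
    have h2 : ⟪yvec V e ζ n, yvec V e ζ (n + 1)⟫_ℂ
        = 1 + ζ * ⟪yvec V e ζ n, V (yvec V e ζ n)⟫_ℂ := by
      rw [show yvec V e ζ (n + 1) = e + ζ • V (yvec V e ζ n) from rfl]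
      rw [inner_add_right, inner_smul_right, inner_y_e V W hW e he hen ζ n]
    rw [h1, h2, ih]
    push_cast
    linear_combination ((n : ℂ) * conj ζ) * h

include hV hW he hen hζ in
/-- the quadratic form of `A = W + γ V` on `y n`. -/
theorem inner_y_Ay (γ : ℂ) (n : ℕ) :
    ⟪yvec V e ζ n, (W + γ • V) (yvec V e ζ n)⟫_ℂ = (n : ℂ) * (ζ + γ * conj ζ) := by
  have hWy : ⟪yvec V e ζ n, W (yvec V e ζ n)⟫_ℂ = (n : ℂ) * ζ := by
    rw [← inner_conj_symm, hW, inner_y_Vy V W hV hW e he hen ζ hζ n]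
    simp
  have hA : (W + γ • V) (yvec V e ζ n) = W (yvec V e ζ n) + γ • V (yvec V e ζ n) := rfl
  rw [hA, inner_add_right, inner_smul_right, hWy, inner_y_Vy V W hV hW e he hen ζ hζ n]
  ring

include hV hW he hen hζ in
theorem norm_y (n : ℕ) : ‖yvec V e ζ n‖ = Real.sqrt ((n : ℝ) + 1) := by
  have h := inner_y_y V W hV hW e he hen ζ hζ n
  rw [inner_self_eq_norm_sq_to_K] at h
  have h2 : ‖yvec V e ζ n‖ ^ 2 = (n : ℝ) + 1 := by
    have := congrArg Complex.re h
    simpa [← Complex.ofReal_pow] using this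
  rw [← h2, Real.sqrt_sq (norm_nonneg _)]

include hV hW he hen hζ in
/-- points of the numerical range of `A = W + γ V` converging to `ζ + γ conj ζ`. -/
theorem exists_unit_inner_eq (γ : ℂ) (n : ℕ) :
    ∃ x : H, ‖x‖ = 1 ∧
      ⟪x, (W + γ • V) x⟫_ℂ = ((n : ℂ) / ((n : ℂ) + 1)) * (ζ + γ * conj ζ) := by
  have hpos : (0 : ℝ) < (n : ℝ) + 1 := by positivity
  have hs : (0 : ℝ) < Real.sqrt ((n : ℝ) + 1) := Real.sqrt_pos.mpr hpos
  refine ⟨((Real.sqrt ((n : ℝ) + 1))⁻¹ : ℂ) • yvec V e ζ n, ?_, ?_⟩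
  · rw [norm_smul, norm_y V W hV hW e he hen ζ hζ n]
    rw [← Complex.ofReal_inv, Complex.norm_real, Real.norm_eq_abs, abs_of_pos (inv_pos.mpr hs)]
    exact inv_mul_cancel₀ hs.ne'
  · rw [map_smul, inner_smul_left, inner_smul_right, inner_y_Ay V W hV hW e he hen ζ hζ γ n]
    have hsq : ((Real.sqrt ((n : ℝ) + 1) : ℝ) : ℂ) ^ 2 = (n : ℂ) + 1 := by
      rw [← Complex.ofReal_pow, Real.sq_sqrt hpos.le]; push_cast; ring
    have hne : ((Real.sqrt ((n : ℝ) + 1) : ℝ) : ℂ) ≠ 0 := by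
      exact_mod_cast hs.ne'
    have hne2 : (n : ℂ) + 1 ≠ 0 := by
      have : ((n : ℂ) + 1) = (((n : ℝ) + 1 : ℝ) : ℂ) := by push_cast; ring
      rw [this]; exact_mod_cast hpos.ne'
    rw [← Complex.ofReal_inv, Complex.conj_ofReal, Complex.ofReal_inv]
    field_simp
    rw [hsq]
    ring

include hV hW he hen hζ in
/-- **Step (5).** A polynomial bounded by `M` on the numerical range of `A = W + γ V`
is bounded by `M` at every point `ζ + γ conj ζ`, `‖ζ‖ = 1`, of the curve. -/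
theorem curve_bound (γ : ℂ) (p : Polynomial ℂ) (M : ℝ)
    (hM : ∀ x : H, ‖x‖ = 1 → ‖p.eval ⟪x, (W + γ • V) x⟫_ℂ‖ ≤ M) :
    ‖p.eval (ζ + γ * conj ζ)‖ ≤ M := by
  have hlim : Tendsto (fun n : ℕ => ((n : ℂ) / ((n : ℂ) + 1)) * (ζ + γ * conj ζ)) atTop
      (𝓝 (ζ + γ * conj ζ)) := by
    have h1 := tendsto_natCast_div_add_atTop (1 : ℂ)
    have h2 := h1.mul_const (ζ + γ * conj ζ)
    simpa using h2
  have hcont : Continuous fun z : ℂ => ‖p.eval z‖ := p.continuous.norm
  have hlim2 := (hcont.tendsto (ζ + γ * conj ζ)).comp hlim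
  refine le_of_tendsto hlim2 (Eventually.of_forall fun n => ?_)
  obtain ⟨x, hx1, hx2⟩ := exists_unit_inner_eq V W hV hW e he hen ζ hζ γ n
  have := hM x hx1
  rw [hx2] at this
  exact this

end

section adjoint
variable [CompleteSpace H]

/-- a non-unitary isometry has a unit vector in the kernel of its adjoint. -/
theorem exists_unit_ker_adjoint (V : H →L[ℂ] H)
    (hV : ContinuousLinearMap.adjoint V * V = 1)
    (hVn : V * ContinuousLinearMap.adjoint V ≠ 1) :
    ∃ e : H, ‖e‖ = 1 ∧ ContinuousLinearMap.adjoint V e = 0 := by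
  have hex : ∃ x : H, x - V (ContinuousLinearMap.adjoint V x) ≠ 0 := by
    by_contra hcon
    apply hVn
    ext x
    have h0 : x - V (ContinuousLinearMap.adjoint V x) = 0 :=
      not_not.mp ((not_exists.mp hcon) x)
    change V (ContinuousLinearMap.adjoint V x) = x
    exact (sub_eq_zero.mp h0).symm
  obtain ⟨x, hx⟩ := hex
  set z := x - V (ContinuousLinearMap.adjoint V x) with hz
  have hWz : ContinuousLinearMap.adjoint V z = 0 := by
    have h1 : ContinuousLinearMap.adjoint V (V (ContinuousLinearMap.adjoint V x))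
        = ContinuousLinearMap.adjoint V x := by
      have h2 := congrArg (fun T : H →L[ℂ] H => T (ContinuousLinearMap.adjoint V x)) hV
      exact h2
    rw [hz, map_sub, h1, sub_self]
  have hzn : (0 : ℝ) < ‖z‖ := norm_pos_iff.mpr hx
  refine ⟨((‖z‖⁻¹ : ℝ) : ℂ) • z, ?_, ?_⟩
  · rw [norm_smul, Complex.norm_real, Real.norm_eq_abs, abs_of_pos (inv_pos.mpr hzn)]
    exact inv_mul_cancel₀ hzn.ne'
  · rw [map_smul, hWz, smul_zero]

/-- **Step (5), adjoint form.** `V` a non-unitary isometry of a complex Hilbert space,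
`A = V† + γ V`.  A polynomial bounded by `M` on the numerical range of `A` is bounded by `M`
on the whole curve `{ζ + γ conj ζ : ‖ζ‖ = 1}`. -/
theorem curve_bound_adjoint (V : H →L[ℂ] H)
    (hV : ContinuousLinearMap.adjoint V * V = 1)
    (hVn : V * ContinuousLinearMap.adjoint V ≠ 1)
    (γ : ℂ) (p : Polynomial ℂ) (M : ℝ)
    (hM : ∀ x : H, ‖x‖ = 1 →
      ‖p.eval ⟪x, (ContinuousLinearMap.adjoint V + γ • V) x⟫_ℂ‖ ≤ M)
    (ζ : ℂ) (hζ : ‖ζ‖ = 1) :
    ‖p.eval (ζ + γ * conj ζ)‖ ≤ M := by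
  obtain ⟨e, hen, he⟩ := exists_unit_ker_adjoint V hV hVn
  have hiso : ∀ x y : H, ⟪V x, V y⟫_ℂ = ⟪x, y⟫_ℂ := by
    intro x y
    rw [← ContinuousLinearMap.adjoint_inner_left]
    have h2 : ContinuousLinearMap.adjoint V (V x) = x :=
      congrArg (fun T : H →L[ℂ] H => T x) hV
    rw [h2]
  have hadj : ∀ x y : H, ⟪ContinuousLinearMap.adjoint V x, y⟫_ℂ = ⟪x, V y⟫_ℂ := by
    intro x y
    exact ContinuousLinearMap.adjoint_inner_left V y x
  exact curve_bound V (ContinuousLinearMap.adjoint V) hiso hadj e he hen ζ hζ γ p M hM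

end adjoint

end Vale.Agent.Lib.P123.H73
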