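import Vale.Agent.Lib.P123.helper73.Curve

/-!
# P123: Crouzeix's inequality for `A = V† + γ V`, `V` a non-unitary isometry

Independent copy (helper73) of the theorem of report 1772 (helper41), steps (1)-(4):
unitary dilation `U = [[V, P], [0, V†]]` on `H ⊕ H`, the normal operator `N = U* + γ U`,
the operator `D = γ (P + V D V†)` (Banach fixed point, `‖D‖ ≤ ‖γ‖`), the intertwining
`Ψ N = A Ψ` with `Ψ = [1, -D V†]`, and the final bound with constant `sqrt (1 + ‖γ‖²)`.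
Step (5) is in `Curve.lean`.
-/

open Polynomial
open scoped ComplexConjugate InnerProductSpace

namespace Vale.Agent.Lib.P123.H73

/-- spectral bound for the normal element `U* + γ U`, `U` unitary. -/
theorem norm_aeval_unitary_le {B : Type*} [CStarAlgebra B] (U : B) (hU : U ∈ unitary B)
    (γ : ℂ) (p : ℂ[X]) (C : ℝ) (hC : 0 ≤ C)
    (h : ∀ z : ℂ, ‖z‖ = 1 → ‖p.eval (conj z + γ * z)‖ ≤ C) :
    ‖aeval (star U + γ • U) p‖ ≤ C := by
  have hn : IsStarNormal U := ⟨by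
    rw [commute_iff_eq, Unitary.star_mul_self_of_mem hU, Unitary.mul_star_self_of_mem hU]⟩
  have hN : star U + γ • U = cfc (fun z : ℂ => star z + γ * z) U := by
    rw [cfc_add (a := U) (f := fun z : ℂ => star z) (g := fun z : ℂ => γ * z),
      cfc_star_id (R := ℂ) (a := U) (ha := hn), cfc_const_mul_id γ U]
  rw [hN, ← cfc_map_polynomial p (fun z : ℂ => star z + γ * z) U]
  refine norm_cfc_le hC ?_
  intro z hz
  have hz1 : ‖z‖ = 1 := by
    have := spectrum.subset_circle_of_unitary hU hz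
    simpa using this
  exact h z hz1

section general
variable {H : Type*} [NormedAddCommGroup H] [InnerProductSpace ℂ H]

/-- the Hilbert space `H ⊕ H`. -/
abbrev K2 (H : Type*) [NormedAddCommGroup H] [InnerProductSpace ℂ H] := WithLp 2 (H × H)

theorem K2_ext {k k' : K2 H} (h1 : k.fst = k'.fst) (h2 : k.snd = k'.snd) : k = k' :=
  WithLp.ofLp_injective 2 (Prod.ext h1 h2)

/-- the block operator `[[a, b], [c, d]]` on `H ⊕ H`. -/
noncomputable def blk (a b c d : H →L[ℂ] H) : K2 H →L[ℂ] K2 H :=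
  (WithLp.prodContinuousLinearEquiv 2 ℂ H H).symm.toContinuousLinearMap ∘L
    ((a ∘L WithLp.fstL 2 ℂ H H + b ∘L WithLp.sndL 2 ℂ H H).prod
      (c ∘L WithLp.fstL 2 ℂ H H + d ∘L WithLp.sndL 2 ℂ H H))

@[simp] theorem blk_fst (a b c d : H →L[ℂ] H) (k : K2 H) :
    (blk a b c d k).fst = a k.fst + b k.snd := rfl

@[simp] theorem blk_snd (a b c d : H →L[ℂ] H) (k : K2 H) :
    (blk a b c d k).snd = c k.fst + d k.snd := rfl

/-- the embedding `x ↦ (x, 0)`. -/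
noncomputable def iota : H →L[ℂ] K2 H :=
  (WithLp.prodContinuousLinearEquiv 2 ℂ H H).symm.toContinuousLinearMap ∘L
    (ContinuousLinearMap.inl ℂ H H)

@[simp] theorem iota_fst (x : H) : (iota x : K2 H).fst = x := rfl
@[simp] theorem iota_snd (x : H) : (iota x : K2 H).snd = 0 := rfl

theorem norm_iota (x : H) : ‖(iota x : K2 H)‖ = ‖x‖ := by
  have h := WithLp.prod_norm_sq_eq_of_L2 (iota x : K2 H)
  rw [iota_fst, iota_snd, norm_zero] at h
  have h2 : ‖(iota x : K2 H)‖ ^ 2 = ‖x‖ ^ 2 := by rw [h]; ring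
  exact (sq_eq_sq₀ (norm_nonneg _) (norm_nonneg _)).mp h2

/-- the row operator `(x, y) ↦ x - G y`. -/
noncomputable def psi (G : H →L[ℂ] H) : K2 H →L[ℂ] H :=
  WithLp.fstL 2 ℂ H H - G ∘L WithLp.sndL 2 ℂ H H

@[simp] theorem psi_apply (G : H →L[ℂ] H) (k : K2 H) : psi G k = k.fst - G k.snd := rfl

theorem psi_iota (G : H →L[ℂ] H) (x : H) : psi G (iota x) = x := by
  rw [psi_apply, iota_fst, iota_snd, map_zero, sub_zero]

/-- `‖x - G y‖ ≤ sqrt (1 + g^2) ‖(x, y)‖` when `‖G‖ ≤ g`. -/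
theorem norm_psi_le (G : H →L[ℂ] H) (g : ℝ) (hg : ‖G‖ ≤ g) (k : K2 H) :
    ‖psi G k‖ ≤ Real.sqrt (1 + g ^ 2) * ‖k‖ := by
  have hg0 : 0 ≤ g := le_trans (norm_nonneg _) hg
  have h1 : ‖psi G k‖ ≤ ‖k.fst‖ + g * ‖k.snd‖ := by
    rw [psi_apply]
    refine le_trans (norm_sub_le _ _) ?_
    have : ‖G k.snd‖ ≤ g * ‖k.snd‖ :=
      le_trans (G.le_opNorm _) (mul_le_mul_of_nonneg_right hg (norm_nonneg _))
    linarith
  have h2 := WithLp.prod_norm_sq_eq_of_L2 k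
  have h3 : (‖k.fst‖ + g * ‖k.snd‖) ^ 2 ≤ (1 + g ^ 2) * ‖k‖ ^ 2 := by
    rw [h2]
    nlinarith [sq_nonneg (g * ‖k.fst‖ - ‖k.snd‖)]
  have h4 : ‖k.fst‖ + g * ‖k.snd‖ ≤ Real.sqrt (1 + g ^ 2) * ‖k‖ := by
    have h5 : Real.sqrt (1 + g ^ 2) * ‖k‖ = Real.sqrt ((1 + g ^ 2) * ‖k‖ ^ 2) := by
      rw [Real.sqrt_mul (by positivity), Real.sqrt_sq (norm_nonneg _)]
    rw [h5]
    exact Real.le_sqrt_of_sq_le h3
  exact le_trans h1 h4

/-- intertwining passes to polynomials. -/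
theorem aeval_intertwine {K : Type*} [NormedAddCommGroup K] [NormedSpace ℂ K]
    (N : K →L[ℂ] K) (A : H →L[ℂ] H) (Ψ : K →L[ℂ] H)
    (h : ∀ k, Ψ (N k) = A (Ψ k)) (p : ℂ[X]) (k : K) :
    Ψ (aeval N p k) = aeval A p (Ψ k) := by
  have hpow : ∀ (n : ℕ) (k : K), Ψ ((N ^ n) k) = (A ^ n) (Ψ k) := by
    intro n
    induction n with
    | zero => intro k; rfl
    | succ n ih =>
      intro k
      rw [pow_succ, pow_succ]
      change Ψ ((N ^ n) (N k)) = (A ^ n) (A (Ψ k))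
      rw [ih, h]
  rw [aeval_eq_sum_range, aeval_eq_sum_range]
  simp only [sum_apply, map_sum, smul_apply, map_smul, hpow]

end general

section isometry
variable {H : Type*} [NormedAddCommGroup H] [InnerProductSpace ℂ H] [CompleteSpace H]

/-- `P = 1 - V V†`. -/
noncomputable def Pop (V : H →L[ℂ] H) : H →L[ℂ] H := 1 - V * (ContinuousLinearMap.adjoint V)

theorem Pop_apply (V : H →L[ℂ] H) (x : H) : Pop V x = x - V ((ContinuousLinearMap.adjoint V) x) := rfl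

theorem adj_V (V : H →L[ℂ] H) (hV : (ContinuousLinearMap.adjoint V) * V = 1) (x : H) : (ContinuousLinearMap.adjoint V) (V x) = x :=
  congrArg (fun T : H →L[ℂ] H => T x) hV

theorem adj_Pop (V : H →L[ℂ] H) (hV : (ContinuousLinearMap.adjoint V) * V = 1) (x : H) : (ContinuousLinearMap.adjoint V) (Pop V x) = 0 := by
  rw [Pop_apply, map_sub, adj_V V hV, sub_self]

theorem Pop_V (V : H →L[ℂ] H) (hV : (ContinuousLinearMap.adjoint V) * V = 1) (x : H) : Pop V (V x) = 0 := by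
  rw [Pop_apply, adj_V V hV, sub_self]

theorem Pop_Pop (V : H →L[ℂ] H) (hV : (ContinuousLinearMap.adjoint V) * V = 1) (x : H) : Pop V (Pop V x) = Pop V x := by
  rw [Pop_apply V (Pop V x), adj_Pop V hV, map_zero, sub_zero]

theorem Pop_add (V : H →L[ℂ] H) (x : H) : Pop V x + V ((ContinuousLinearMap.adjoint V) x) = x := by
  rw [Pop_apply]; abel

theorem norm_V (V : H →L[ℂ] H) (hV : (ContinuousLinearMap.adjoint V) * V = 1) (x : H) : ‖V x‖ = ‖x‖ :=
  (ContinuousLinearMap.norm_map_iff_adjoint_comp_self V).mpr hV x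

theorem inner_Pop_V (V : H →L[ℂ] H) (hV : (ContinuousLinearMap.adjoint V) * V = 1) (x z : H) : ⟪Pop V x, V z⟫_ℂ = 0 := by
  rw [← ContinuousLinearMap.adjoint_inner_left, adj_Pop V hV, inner_zero_left]

/-- `‖P x + V z‖² = ‖P x‖² + ‖z‖²`. -/
theorem norm_Pop_add_V_sq (V : H →L[ℂ] H) (hV : (ContinuousLinearMap.adjoint V) * V = 1) (x z : H) :
    ‖Pop V x + V z‖ ^ 2 = ‖Pop V x‖ ^ 2 + ‖z‖ ^ 2 := by
  have h := norm_add_sq (𝕜 := ℂ) (Pop V x) (V z)
  rw [inner_Pop_V V hV, norm_V V hV] at h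
  simpa using h

/-- `‖P x‖² + ‖V† x‖² = ‖x‖²`. -/
theorem norm_Pop_sq_add (V : H →L[ℂ] H) (hV : (ContinuousLinearMap.adjoint V) * V = 1) (x : H) :
    ‖Pop V x‖ ^ 2 + ‖(ContinuousLinearMap.adjoint V) x‖ ^ 2 = ‖x‖ ^ 2 := by
  rw [← norm_Pop_add_V_sq V hV, Pop_add]

theorem norm_adj_le (V : H →L[ℂ] H) (hV : (ContinuousLinearMap.adjoint V) * V = 1) (x : H) : ‖(ContinuousLinearMap.adjoint V) x‖ ≤ ‖x‖ := by
  have h := norm_Pop_sq_add V hV x
  have h2 : ‖(ContinuousLinearMap.adjoint V) x‖ ^ 2 ≤ ‖x‖ ^ 2 := by nlinarith [sq_nonneg ‖Pop V x‖]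
  exact (sq_le_sq₀ (norm_nonneg _) (norm_nonneg _)).mp h2

/-- the unitary dilation `U = [[V, P], [0, V†]]`. -/
noncomputable def Umat (V : H →L[ℂ] H) : K2 H →L[ℂ] K2 H := blk V (Pop V) 0 ((ContinuousLinearMap.adjoint V))

/-- its adjoint `[[V†, 0], [P, V]]`. -/
noncomputable def Ustar (V : H →L[ℂ] H) : K2 H →L[ℂ] K2 H := blk ((ContinuousLinearMap.adjoint V)) 0 (Pop V) V

theorem star_Umat (V : H →L[ℂ] H) : star (Umat V) = Ustar V := by
  rw [ContinuousLinearMap.star_eq_adjoint]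
  symm
  rw [ContinuousLinearMap.eq_adjoint_iff]
  intro x y
  simp only [WithLp.prod_inner_apply, WithLp.ofLp_fst, WithLp.ofLp_snd, Ustar, Umat, blk_fst,
    blk_snd, Pop_apply, inner_add_left, inner_add_right, inner_sub_left, inner_sub_right]
  have e1 : ⟪(ContinuousLinearMap.adjoint V) x.fst, y.fst⟫_ℂ = ⟪x.fst, V y.fst⟫_ℂ :=
    ContinuousLinearMap.adjoint_inner_left V y.fst x.fst
  have e2 : ⟪x.snd, (ContinuousLinearMap.adjoint V) y.snd⟫_ℂ = ⟪V x.snd, y.snd⟫_ℂ :=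
    ContinuousLinearMap.adjoint_inner_right V x.snd y.snd
  have e3 : ⟪V ((ContinuousLinearMap.adjoint V) x.fst), y.snd⟫_ℂ = ⟪(ContinuousLinearMap.adjoint V) x.fst, (ContinuousLinearMap.adjoint V) y.snd⟫_ℂ :=
    (ContinuousLinearMap.adjoint_inner_right V ((ContinuousLinearMap.adjoint V) x.fst) y.snd).symm
  have e4 : ⟪x.fst, V ((ContinuousLinearMap.adjoint V) y.snd)⟫_ℂ = ⟪(ContinuousLinearMap.adjoint V) x.fst, (ContinuousLinearMap.adjoint V) y.snd⟫_ℂ :=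
    (ContinuousLinearMap.adjoint_inner_left V ((ContinuousLinearMap.adjoint V) y.snd) x.fst).symm
  simp only [zero_apply, inner_zero_left, inner_zero_right]
  rw [e1, e2, e3, e4]
  ring

theorem Ustar_mul_Umat (V : H →L[ℂ] H) (hV : (ContinuousLinearMap.adjoint V) * V = 1) : Ustar V * Umat V = 1 := by
  ext k
  refine K2_ext ?_ ?_
  · change (Ustar V (Umat V k)).fst = k.fst
    simp only [Ustar, Umat, blk_fst, blk_snd, map_add, adj_V V hV, adj_Pop V hV,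
      zero_apply]
    simp
  · change (Ustar V (Umat V k)).snd = k.snd
    simp only [Ustar, Umat, blk_fst, blk_snd, map_add, Pop_V V hV, Pop_Pop V hV,
      zero_apply]
    simp [Pop_add]

theorem Umat_mul_Ustar (V : H →L[ℂ] H) (hV : (ContinuousLinearMap.adjoint V) * V = 1) : Umat V * Ustar V = 1 := by
  ext k
  refine K2_ext ?_ ?_
  · change (Umat V (Ustar V k)).fst = k.fst
    simp only [Ustar, Umat, blk_fst, blk_snd, map_add, Pop_V V hV, Pop_Pop V hV,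
      zero_apply]
    simp only [map_zero, add_zero]
    rw [add_comm]
    exact Pop_add V k.fst
  · change (Umat V (Ustar V k)).snd = k.snd
    simp only [Ustar, Umat, blk_fst, blk_snd, map_add, adj_V V hV, adj_Pop V hV,
      zero_apply]
    simp

theorem Umat_unitary (V : H →L[ℂ] H) (hV : (ContinuousLinearMap.adjoint V) * V = 1) :
    Umat V ∈ unitary (K2 H →L[ℂ] K2 H) := by
  rw [Unitary.mem_iff, star_Umat]
  exact ⟨Ustar_mul_Umat V hV, Umat_mul_Ustar V hV⟩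

/-- the normal operator `N = U* + γ U` on `H ⊕ H`. -/
noncomputable def Nmat (V : H →L[ℂ] H) (γ : ℂ) : K2 H →L[ℂ] K2 H :=
  star (Umat V) + γ • Umat V

theorem Nmat_fst (V : H →L[ℂ] H) (γ : ℂ) (k : K2 H) :
    (Nmat V γ k).fst = (ContinuousLinearMap.adjoint V) k.fst + γ • (V k.fst + Pop V k.snd) := by
  rw [Nmat, star_Umat]
  change (Ustar V k + γ • Umat V k).fst = _
  simp [Ustar, Umat]

theorem Nmat_snd (V : H →L[ℂ] H) (γ : ℂ) (k : K2 H) :
    (Nmat V γ k).snd = Pop V k.fst + V k.snd + γ • (ContinuousLinearMap.adjoint V) k.snd := by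
  rw [Nmat, star_Umat]
  change (Ustar V k + γ • Umat V k).snd = _
  simp [Ustar, Umat]

/-- the intertwining relation `Ψ N = A Ψ`, `Ψ = [1, -D V†]`. -/
theorem psi_Nmat (V : H →L[ℂ] H) (hV : (ContinuousLinearMap.adjoint V) * V = 1) (γ : ℂ) (D : H →L[ℂ] H)
    (hD : ∀ x, D x = γ • (Pop V x + V (D ((ContinuousLinearMap.adjoint V) x)))) (k : K2 H) :
    psi (D * (ContinuousLinearMap.adjoint V)) (Nmat V γ k) = ((ContinuousLinearMap.adjoint V) + γ • V) (psi (D * (ContinuousLinearMap.adjoint V)) k) := by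
  have hWD : ∀ y, (ContinuousLinearMap.adjoint V) (D y) = γ • D ((ContinuousLinearMap.adjoint V) y) := by
    intro y
    conv_lhs => rw [hD y]
    rw [map_smul, map_add, adj_Pop V hV, adj_V V hV, zero_add]
  have hDk := hD k.snd
  rw [psi_apply, psi_apply, Nmat_fst, Nmat_snd]
  change (ContinuousLinearMap.adjoint V) k.fst + γ • (V k.fst + Pop V k.snd)
      - D ((ContinuousLinearMap.adjoint V) (Pop V k.fst + V k.snd + γ • (ContinuousLinearMap.adjoint V) k.snd))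
    = (ContinuousLinearMap.adjoint V) (k.fst - D ((ContinuousLinearMap.adjoint V) k.snd)) + γ • V (k.fst - D ((ContinuousLinearMap.adjoint V) k.snd))
  have e1 : (ContinuousLinearMap.adjoint V) (Pop V k.fst + V k.snd + γ • (ContinuousLinearMap.adjoint V) k.snd)
      = k.snd + γ • (ContinuousLinearMap.adjoint V) ((ContinuousLinearMap.adjoint V) k.snd) := by
    rw [map_add, map_add, adj_Pop V hV, adj_V V hV, zero_add, map_smul]
  have e2 : D (k.snd + γ • (ContinuousLinearMap.adjoint V) ((ContinuousLinearMap.adjoint V) k.snd))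
      = D k.snd + γ • D ((ContinuousLinearMap.adjoint V) ((ContinuousLinearMap.adjoint V) k.snd)) := by
    rw [map_add, map_smul]
  have e3 : (ContinuousLinearMap.adjoint V) (k.fst - D ((ContinuousLinearMap.adjoint V) k.snd))
      = (ContinuousLinearMap.adjoint V) k.fst - γ • D ((ContinuousLinearMap.adjoint V) ((ContinuousLinearMap.adjoint V) k.snd)) := by
    rw [map_sub, hWD]
  have e4 : V (k.fst - D ((ContinuousLinearMap.adjoint V) k.snd)) = V k.fst - V (D ((ContinuousLinearMap.adjoint V) k.snd)) := map_sub _ _ _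
  rw [e1, e2, e3, e4, hDk]
  simp only [smul_add, smul_sub]
  abel

/-- any solution of `D = γ (P + V D V†)` has norm at most `‖γ‖` (for `‖γ‖ < 1`). -/
theorem norm_D_le (V : H →L[ℂ] H) (hV : (ContinuousLinearMap.adjoint V) * V = 1) (γ : ℂ) (hγ : ‖γ‖ < 1)
    (D : H →L[ℂ] H) (hD : ∀ x, D x = γ • (Pop V x + V (D ((ContinuousLinearMap.adjoint V) x)))) : ‖D‖ ≤ ‖γ‖ := by
  set m := max 1 ‖D‖ with hm
  have hm1 : 1 ≤ m := le_max_left _ _
  have hmd : ‖D‖ ≤ m := le_max_right _ _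
  have hm0 : 0 ≤ m := le_trans zero_le_one hm1
  have hm2 : 1 ≤ m ^ 2 := by nlinarith
  have key : ∀ x, ‖D x‖ ≤ ‖γ‖ * m * ‖x‖ := by
    intro x
    rw [hD x, norm_smul, mul_assoc]
    refine mul_le_mul_of_nonneg_left ?_ (norm_nonneg _)
    have h1 := norm_Pop_add_V_sq V hV x (D ((ContinuousLinearMap.adjoint V) x))
    have h2 := norm_Pop_sq_add V hV x
    have h3 : ‖D ((ContinuousLinearMap.adjoint V) x)‖ ≤ m * ‖(ContinuousLinearMap.adjoint V) x‖ :=
      le_trans (D.le_opNorm _) (mul_le_mul_of_nonneg_right hmd (norm_nonneg _))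
    have h5 : ‖D ((ContinuousLinearMap.adjoint V) x)‖ ^ 2 ≤ (m * ‖(ContinuousLinearMap.adjoint V) x‖) ^ 2 := pow_le_pow_left₀ (norm_nonneg _) h3 2
    have h6 : ‖Pop V x‖ ^ 2 ≤ m ^ 2 * ‖Pop V x‖ ^ 2 := le_mul_of_one_le_left (sq_nonneg _) hm2
    have h4 : ‖Pop V x + V (D ((ContinuousLinearMap.adjoint V) x))‖ ^ 2 ≤ (m * ‖x‖) ^ 2 := by
      rw [h1, mul_pow, ← h2]
      rw [mul_pow] at h5
      linarith
    exact (sq_le_sq₀ (norm_nonneg _) (mul_nonneg hm0 (norm_nonneg _))).mp h4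
  have hbound : ‖D‖ ≤ ‖γ‖ * m :=
    D.opNorm_le_bound (mul_nonneg (norm_nonneg _) hm0) key
  rcases le_or_gt ‖D‖ 1 with h | h
  · have hm' : m = 1 := max_eq_left h
    rw [hm', mul_one] at hbound
    exact hbound
  · have hm' : m = ‖D‖ := max_eq_right h.le
    rw [hm'] at hbound
    nlinarith [norm_nonneg D]

/-- existence of `D` with `D = γ (P + V D V†)` (Banach fixed point). -/
theorem exists_D (V : H →L[ℂ] H) (hV : (ContinuousLinearMap.adjoint V) * V = 1) (γ : ℂ) (hγ : ‖γ‖ < 1) :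
    ∃ D : H →L[ℂ] H, ∀ x, D x = γ • (Pop V x + V (D ((ContinuousLinearMap.adjoint V) x))) := by
  have hVle : ‖V‖ ≤ 1 :=
    V.opNorm_le_bound zero_le_one (fun x => by rw [one_mul, norm_V V hV])
  have hWle : ‖(ContinuousLinearMap.adjoint V)‖ ≤ 1 :=
    ((ContinuousLinearMap.adjoint V)).opNorm_le_bound zero_le_one (fun x => by rw [one_mul]; exact norm_adj_le V hV x)
  let f : (H →L[ℂ] H) → (H →L[ℂ] H) := fun X => γ • (Pop V + V * X * (ContinuousLinearMap.adjoint V))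
  have hf : ContractingWith ⟨‖γ‖, norm_nonneg γ⟩ f := by
    refine ⟨by exact_mod_cast hγ, LipschitzWith.of_dist_le_mul fun X Y => ?_⟩
    rw [dist_eq_norm, dist_eq_norm]
    have h1 : f X - f Y = γ • (V * (X - Y) * (ContinuousLinearMap.adjoint V)) := by
      simp only [f]
      rw [← smul_sub, mul_sub, sub_mul]
      congr 1
      abel
    rw [h1, norm_smul]
    change ‖γ‖ * ‖V * (X - Y) * (ContinuousLinearMap.adjoint V)‖ ≤ ‖γ‖ * ‖X - Y‖
    refine mul_le_mul_of_nonneg_left ?_ (norm_nonneg _)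
    calc ‖V * (X - Y) * (ContinuousLinearMap.adjoint V)‖ ≤ ‖V * (X - Y)‖ * ‖(ContinuousLinearMap.adjoint V)‖ := norm_mul_le _ _
      _ ≤ (‖V‖ * ‖X - Y‖) * ‖(ContinuousLinearMap.adjoint V)‖ :=
          mul_le_mul_of_nonneg_right (norm_mul_le _ _) (norm_nonneg _)
      _ ≤ (1 * ‖X - Y‖) * 1 := by
          refine mul_le_mul (mul_le_mul_of_nonneg_right hVle (norm_nonneg _)) hWle
            (norm_nonneg _) (by positivity)
      _ = ‖X - Y‖ := by ring
  refine ⟨ContractingWith.fixedPoint f hf, fun x => ?_⟩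
  have hfix : f (ContractingWith.fixedPoint f hf) = ContractingWith.fixedPoint f hf :=
    ContractingWith.fixedPoint_isFixedPt hf
  conv_lhs => rw [← hfix]
  rfl

/-- **Steps (1)-(4).** `V` an isometry, `‖γ‖ < 1`, `A = V† + γ V`: a polynomial bounded by `C`
on the curve `{conj z + γ z : ‖z‖ = 1}` satisfies `‖p(A)‖ ≤ sqrt (1 + ‖γ‖²) C`. -/
theorem norm_aeval_le_of_curve (V : H →L[ℂ] H) (hV : (ContinuousLinearMap.adjoint V) * V = 1) (γ : ℂ) (hγ : ‖γ‖ < 1)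
    (p : ℂ[X]) (C : ℝ) (hC : 0 ≤ C)
    (h : ∀ z : ℂ, ‖z‖ = 1 → ‖p.eval (conj z + γ * z)‖ ≤ C) :
    ‖aeval ((ContinuousLinearMap.adjoint V) + γ • V) p‖ ≤ Real.sqrt (1 + ‖γ‖ ^ 2) * C := by
  obtain ⟨D, hD⟩ := exists_D V hV γ hγ
  have hDn : ‖D‖ ≤ ‖γ‖ := norm_D_le V hV γ hγ D hD
  have hWle : ‖(ContinuousLinearMap.adjoint V)‖ ≤ 1 :=
    ((ContinuousLinearMap.adjoint V)).opNorm_le_bound zero_le_one (fun x => by rw [one_mul]; exact norm_adj_le V hV x)
  have hG : ‖D * (ContinuousLinearMap.adjoint V)‖ ≤ ‖γ‖ := by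
    calc ‖D * (ContinuousLinearMap.adjoint V)‖ ≤ ‖D‖ * ‖(ContinuousLinearMap.adjoint V)‖ := norm_mul_le _ _
      _ ≤ ‖γ‖ * 1 := mul_le_mul hDn hWle (norm_nonneg _) (norm_nonneg _)
      _ = ‖γ‖ := mul_one _
  have hN : ‖aeval (Nmat V γ) p‖ ≤ C :=
    norm_aeval_unitary_le (Umat V) (Umat_unitary V hV) γ p C hC h
  have hs : 0 ≤ Real.sqrt (1 + ‖γ‖ ^ 2) := Real.sqrt_nonneg _
  refine ContinuousLinearMap.opNorm_le_bound _ (mul_nonneg hs hC) (fun x => ?_)
  have h1 : aeval ((ContinuousLinearMap.adjoint V) + γ • V) p x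
      = psi (D * (ContinuousLinearMap.adjoint V)) (aeval (Nmat V γ) p (iota x)) := by
    rw [aeval_intertwine (Nmat V γ) ((ContinuousLinearMap.adjoint V) + γ • V) (psi (D * (ContinuousLinearMap.adjoint V)))
      (psi_Nmat V hV γ D hD) p (iota x), psi_iota]
  rw [h1]
  calc ‖psi (D * (ContinuousLinearMap.adjoint V)) (aeval (Nmat V γ) p (iota x))‖
      ≤ Real.sqrt (1 + ‖γ‖ ^ 2) * ‖aeval (Nmat V γ) p (iota x)‖ :=
        norm_psi_le (D * (ContinuousLinearMap.adjoint V)) ‖γ‖ hG _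
    _ ≤ Real.sqrt (1 + ‖γ‖ ^ 2) * (‖aeval (Nmat V γ) p‖ * ‖(iota x : K2 H)‖) :=
        mul_le_mul_of_nonneg_left (ContinuousLinearMap.le_opNorm _ _) hs
    _ ≤ Real.sqrt (1 + ‖γ‖ ^ 2) * (C * ‖x‖) := by
        rw [norm_iota]
        exact mul_le_mul_of_nonneg_left (mul_le_mul_of_nonneg_right hN (norm_nonneg _)) hs
    _ = Real.sqrt (1 + ‖γ‖ ^ 2) * C * ‖x‖ := by ring

/-- **Crouzeix's inequality for `A = V† + γ V`.** `H` a complex Hilbert space, `V` an isometry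
of `H` that is not unitary, `‖γ‖ < 1`, `A = V† + γ V`.  If a polynomial `p` satisfies
`‖p z‖ ≤ M` at every point `z = ⟪x, A x⟫` (`‖x‖ = 1`) of the numerical range of `A`
(Mathlib's `inner x (A x)` is the problem file's `<Ax, x>`), then
`‖p(A)‖ ≤ sqrt (1 + ‖γ‖²) M`. -/
theorem crouzeix_isometry (V : H →L[ℂ] H) (hV : (ContinuousLinearMap.adjoint V) * V = 1) (hVn : V * (ContinuousLinearMap.adjoint V) ≠ 1)
    (γ : ℂ) (hγ : ‖γ‖ < 1) (p : ℂ[X]) (M : ℝ)
    (hM : ∀ x : H, ‖x‖ = 1 → ‖p.eval ⟪x, ((ContinuousLinearMap.adjoint V) + γ • V) x⟫_ℂ‖ ≤ M) :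
    ‖aeval ((ContinuousLinearMap.adjoint V) + γ • V) p‖ ≤ Real.sqrt (1 + ‖γ‖ ^ 2) * M := by
  obtain ⟨e, hen, -⟩ := exists_unit_ker_adjoint V hV hVn
  have hM0 : 0 ≤ M := le_trans (norm_nonneg _) (hM e hen)
  refine norm_aeval_le_of_curve V hV γ hγ p M hM0 (fun z hz => ?_)
  have hz' : ‖conj z‖ = 1 := by rw [RCLike.norm_conj]; exact hz
  have h := curve_bound_adjoint V hV hVn γ p M hM (conj z) hz'
  rwa [Complex.conj_conj] at h

/-- the same with the absolute constants `sqrt 2` and `2`. -/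
theorem crouzeix_isometry_two (V : H →L[ℂ] H) (hV : (ContinuousLinearMap.adjoint V) * V = 1) (hVn : V * (ContinuousLinearMap.adjoint V) ≠ 1)
    (γ : ℂ) (hγ : ‖γ‖ < 1) (p : ℂ[X]) (M : ℝ)
    (hM : ∀ x : H, ‖x‖ = 1 → ‖p.eval ⟪x, ((ContinuousLinearMap.adjoint V) + γ • V) x⟫_ℂ‖ ≤ M) :
    ‖aeval ((ContinuousLinearMap.adjoint V) + γ • V) p‖ ≤ Real.sqrt 2 * M ∧ ‖aeval ((ContinuousLinearMap.adjoint V) + γ • V) p‖ ≤ 2 * M := by
  obtain ⟨e, hen, -⟩ := exists_unit_ker_adjoint V hV hVn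
  have hM0 : 0 ≤ M := le_trans (norm_nonneg _) (hM e hen)
  have h := crouzeix_isometry V hV hVn γ hγ p M hM
  have h1 : Real.sqrt (1 + ‖γ‖ ^ 2) ≤ Real.sqrt 2 := by
    apply Real.sqrt_le_sqrt
    have : ‖γ‖ ^ 2 ≤ 1 := by nlinarith [norm_nonneg γ]
    linarith
  have h2 : Real.sqrt 2 ≤ 2 := by
    rw [show (2 : ℝ) = Real.sqrt 4 by
      rw [show (4 : ℝ) = 2 ^ 2 by norm_num, Real.sqrt_sq (by norm_num)]]
    exact Real.sqrt_le_sqrt (by norm_num)
  have h3 : ‖aeval ((ContinuousLinearMap.adjoint V) + γ • V) p‖ ≤ Real.sqrt 2 * M :=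
    le_trans h (mul_le_mul_of_nonneg_right h1 hM0)
  exact ⟨h3, le_trans h3 (mul_le_mul_of_nonneg_right h2 hM0)⟩

end isometry

end Vale.Agent.Lib.P123.H73
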